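import Vale.Agent.P167.N.Kit
import Vale.Agent.P167.N.H174.ND.Nb
import Vale.Agent.P167.H208.SH.PS0

/-! generated from Vale.Agent.P167.H208.SH.PS0 (q < 1 port) -/

set_option autoImplicit false

open Set Filter Topology MeasureTheory

open scoped ComplexConjugate

namespace Vale.Agent.P167.N.H208.SH

open Vale.Agent.P167.H208.SH Vale.Agent.P167.H208

open Vale.Agent.P167 Vale.Agent.P167.BR Vale.Agent.P167.FK

open Vale.Agent.P167.CA (cms)

open Vale.Agent.P167.H411.Q (fb)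

open Vale.Agent.P167.E6 (pt IsPolygon Encloses)

open Vale.Agent.P167.H436.ND

open Vale.Agent.P167.H135 (Mov)

open Vale.Agent.P167.H718 (Dob)

open Vale.Agent.P167.QB (XG dlt Nf dq flt_of)

open Vale.Agent.P167.H562.QM (FltQ NbP)

open Vale.Agent.P167.H519 (IsLim)

open Vale.Agent.P167.H192.Q (SRSW)

open Vale.Agent.P167.H640.ND (Mq poly_mov enc_mov Ex_XG_mov)

open Vale.Agent.P167.H174.ND (xg_base_even poly_rot encl_rot nb_comp NbP_mono)

variable {θ : ℝ} {P : Measure Cfg} {N : ℕ} {q : ZMod N → ℤ × ℤ} {D : Finset (ℤ × ℤ)} {l : ℕ}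

theorem fac_bd (h1 : Ang θ) (v : ℤ × ℤ) : 1 ≤ fac θ v ∧ fac θ v ≤ (2 * Real.cos θ)⁻¹ := by
  have h2 := h1.kit.pos
  have h3 : 1 ≤ (2 * Real.cos θ)⁻¹ := (one_le_inv₀ h2).2 h1.kit.le
  unfold fac
  split_ifs
  · exact ⟨le_rfl, h3⟩
  · exact ⟨h3, le_rfl⟩

theorem w_eq (h0 : 0 < θ) (h1 : Ang θ) (hq : IsPolygon q) (hD : Encloses q D)
    (hl : l < N) (he : ((q l).1 + (q l).2) % 2 = 0) (M : Mov) {F : ℤ × ℤ → ℝ}
    (hF : ∀ z, F z ≠ 0 → z ∈ sites D) (hs : ∑ᶠ z, F z = θ) :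
    Ex (2 * Real.cos θ) D eta0 (XG θ q D N (fun z => F z - dlt (q l) θ z)) =
      fac θ (q 0) * Ex (2 * Real.cos θ) (M.S D) eta0
        (XG θ (Mq M (qsh q l)) (M.S D) N (fun z => M.F F z + dlt (M.t (q 0)) (-θ) z)) := by
  have h1_lt := h1.lt
  have hpi := Real.pi_pos
  have e1 : (fun z => F z - dlt (q l) θ z) = fun z => F z + dlt (q l) (-θ) z := by
    funext z
    unfold dlt
    split_ifs <;> ring
  have e2 : XG θ q D N (fun z => F z + dlt (q l) (-θ) z) = fun ω => fac θ (q 0) *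
      XG θ (qsh q l) D N (fun z => F z + dlt (q 0) (-θ) z) ω := by
    funext ω
    exact xg_base_even h0 (by linarith) hq hD hl (fun i => rfl) hF hs he ω
  have e3 := Ex_XG_mov M (2 * Real.cos θ) θ (D := D) (k := N)
    (poly_rot hq (q' := qsh q l) (fun i => rfl)) eta0 (fun z => F z + dlt (q 0) (-θ) z)
  rw [F_dlt] at e3
  have e4 : M.c eta0 = eta0 := rfl
  rw [e4] at e3
  rw [e1, e2, FKA.Ex_mul_left, e3]

theorem nb_near (h0 : 0 < θ) (h1 : Ang θ) (hR : RSW (2 * Real.cos θ))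
    (hP : IsLim (2 * Real.cos θ) P) {Λ : ℝ} (hΛ : 1 ≤ Λ) :
    ∃ C d0 : ℝ, 0 ≤ C ∧ 0 < d0 ∧ ∀ d d' : ℝ, d0 ≤ d → d0 ≤ d' → d ≤ Λ * d' → d' ≤ Λ * d →
      |NbP P d - NbP P d'| ≤ C := by
  have h1_lt := h1.lt
  obtain ⟨C, d0, hC, hd0, h⟩ := Vale.Agent.P167.N.H174.ND.nb_comp h1.kit hR hP hΛ
  have hPp : IsProbabilityMeasure P := hP.1
  refine ⟨C, d0, hC, hd0, fun d d' h2 h3 h4 h5 => ?_⟩
  rcases le_total d d' with h6 | h6
  · have h7 := h d d' h2 h6 h5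
    have h8 := NbP_mono hPp h6
    rw [abs_le]
    constructor <;> linarith
  · have h7 := h d' d h3 h6 h4
    have h8 := NbP_mono hPp h6
    rw [abs_le]
    constructor <;> linarith

theorem ex_near (h0 : 0 < θ) (h1 : Ang θ) (hR : RSW (2 * Real.cos θ))
    (hP : IsLim (2 * Real.cos θ) P) {J : ℕ} (hJ : 0 < J) {K : ℤ} (hK : 1 ≤ K) {K' : ℝ}
    (hK' : 1 ≤ K') : ∃ C r0 : ℝ, 0 ≤ C ∧ ∀ x : ℝ, r0 ≤ x →
      |Real.tan θ * θ * NbP P (dq K' (⌈x⌉ + 1)) -
        Ex0 θ P (fun _ : Fin J => θ / J) (asq J K x)| ≤ C := by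
  have h1_lt := h1.lt
  have hK1 : (1 : ℝ) ≤ K := by exact_mod_cast hK
  have hpi := Real.pi_pos
  have hpK : (1 : ℝ) ≤ (K : ℝ) ^ (J - 1) := one_le_pow₀ hK1
  have ht : 0 ≤ Real.tan θ := Real.tan_nonneg_of_nonneg_of_le_pi_div_two h0.le (by linarith)
  obtain ⟨C, d0, hC, hd0, h⟩ := nb_near h0 h1 hR hP (Λ := K' + 100 * (K : ℝ) ^ (J - 1))
    (by linarith)
  refine ⟨Real.tan θ * θ * C, max (128 * (K : ℝ) ^ (J - 1))
    (max (1600 * (K : ℝ) ^ (J - 1) * d0) (66 * K' * d0)), by positivity, fun x hx => ?_⟩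
  have hx1 : 128 * (K : ℝ) ^ (J - 1) ≤ x := (le_max_left _ _).trans hx
  have hx2 : 1600 * (K : ℝ) ^ (J - 1) * d0 ≤ x := ((le_max_left _ _).trans (le_max_right _ _)).trans hx
  have hx3 : 66 * K' * d0 ≤ x := ((le_max_right _ _).trans (le_max_right _ _)).trans hx
  have hx0 : 1 ≤ x := by linarith
  have h64 : 64 ≤ a00 J K x := a00_ge hK (by push_cast; linarith)
  have c1 := Int.le_ceil x
  have c2 := Int.ceil_lt_add_one x
  have hJ0 : (0 : ℝ) < J := by exact_mod_cast hJ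
  have key : ∀ i : Fin J, |NbP P (dq K' (⌈x⌉ + 1)) - NbP P (kp * asq J K x i)| ≤ C := by
    intro i
    obtain ⟨h2, h3, h4, h5, h6⟩ := asq_bd hK h64 i
    have e1 : dq K' (⌈x⌉ + 1) = 1 / (66 * K') * (⌈x⌉ + 1 : ℝ) := by
      unfold QB.dq
      push_cast
      rfl
    have ha : (0 : ℝ) < asq J K x i := by
      have : (64 : ℤ) ≤ asq J K x i := h64.trans h4
      have : (64 : ℝ) ≤ asq J K x i := by exact_mod_cast this
      linarith
    refine h _ _ ?_ ?_ ?_ ?_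
    · rw [e1, div_mul_eq_mul_div, one_mul, le_div_iff₀ (by positivity)]
      linarith
    · unfold kp
      nlinarith
    · rw [e1, div_mul_eq_mul_div, one_mul, div_le_iff₀ (by positivity)]
      unfold kp
      have h7 : (⌈x⌉ + 1 : ℝ) ≤ 3 * x := by linarith
      have h8 : 3 * x ≤ 12 * (K : ℝ) ^ (J - 1) * asq J K x i := by linarith
      have h9 : 0 ≤ (K : ℝ) ^ (J - 1) * asq J K x i := by positivity
      have h10 : 0 ≤ K' * asq J K x i := by positivity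
      have h11 : (K : ℝ) ^ (J - 1) * asq J K x i ≤ (K : ℝ) ^ (J - 1) * asq J K x i * K' :=
        le_mul_of_one_le_right h9 hK'
      nlinarith
    · rw [e1]
      unfold kp
      have h7 : (1 : ℝ) / 400 * asq J K x i ≤ x / 800 := by linarith
      have h8 : x / 800 ≤ 1 / 66 * (⌈x⌉ + 1 : ℝ) := by linarith
      have h9 : 1 / 66 * (⌈x⌉ + 1 : ℝ) = K' * (1 / (66 * K') * (⌈x⌉ + 1 : ℝ)) := by field_simp
      have h10 : 0 ≤ 1 / (66 * K') * (⌈x⌉ + 1 : ℝ) := by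
        have : (0 : ℝ) ≤ ⌈x⌉ + 1 := by linarith
        positivity
      have h11 : K' * (1 / (66 * K') * (⌈x⌉ + 1 : ℝ)) ≤
          (K' + 100 * (K : ℝ) ^ (J - 1)) * (1 / (66 * K') * (⌈x⌉ + 1 : ℝ)) :=
        mul_le_mul_of_nonneg_right (by linarith) h10
      linarith
  have e2 : Real.tan θ * θ * NbP P (dq K' (⌈x⌉ + 1)) -
      Ex0 θ P (fun _ : Fin J => θ / J) (asq J K x) = ∑ i : Fin J, Real.tan θ * (θ / J) *
        (NbP P (dq K' (⌈x⌉ + 1)) - NbP P (kp * asq J K x i)) := by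
    unfold Ex0
    simp only [mul_sub, Finset.sum_sub_distrib, Finset.sum_const, Finset.card_univ, Fintype.card_fin,
      nsmul_eq_mul, Finset.mul_sum]
    congr 1
    · field_simp
    · exact Finset.sum_congr rfl fun i _ => by ring
  rw [e2]
  refine (Finset.abs_sum_le_sum_abs _ _).trans ?_
  calc ∑ i : Fin J, |Real.tan θ * (θ / J) * (NbP P (dq K' (⌈x⌉ + 1)) - NbP P (kp * asq J K x i))|
      ≤ ∑ _i : Fin J, Real.tan θ * (θ / J) * C := by
        refine Finset.sum_le_sum fun i _ => ?_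
        rw [abs_mul, abs_of_nonneg (by positivity : 0 ≤ Real.tan θ * (θ / J))]
        exact mul_le_mul_of_nonneg_left (key i) (by positivity)
    _ = _ := by
        rw [Finset.sum_const, Finset.card_univ, Fintype.card_fin, nsmul_eq_mul]
        field_simp

end Vale.Agent.P167.N.H208.SH
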