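import Vale.Agent.P167.N.Kit
import Vale.Agent.P167.N.H542.Q.Fam
import Vale.Agent.P167.N.H542.Q.FamB
import Vale.Agent.P167.N.H542.Q.M2
import Vale.Agent.P167.N.H542.Q.Pc
import Vale.Agent.P167.H208.SH.Shift

/-! generated from Vale.Agent.P167.H208.SH.Shift (q < 1 port) -/

set_option autoImplicit false

open Finset MeasureTheory Filter Topology

namespace Vale.Agent.P167.N.H208.SH

open Vale.Agent.P167.H208.SH Vale.Agent.P167.H208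

open Vale.Agent.P167 Vale.Agent.P167.BR Relation Vale.Agent.P167.H542 Vale.Agent.P167.FK

open Vale.Agent.P167.H436 (ero mem_ero ero_sub econ_ero econ_enl cells_conn mem_enl)

open Vale.Agent.P167.H542.Dt Vale.Agent.P167.H542.Q

/-- **Moments of the functional, any charges in the bulk.** -/
theorem mom_bulkQ {Q m : ℝ} (c : ℝ) (hQ1 : Kit Q) (hRSW : RSW Q) (hm0 : 0 ≤ m)
    (hm1 : Ang m) (S : CA.Dat) {κ0 Cm q : ℝ} (hκ0p : 0 < κ0) (hκ08 : κ0 ≤ 1 / 8)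
    (hCm1 : 1 ≤ Cm) (hq : 0 ≤ q) :
    ∃ C : ℝ, 0 < C ∧ ∀ᶠ n : ℕ in atTop, ∀ η : Cfg, Good η → ∀ p, Bas (S.D n) p →
      ∀ th, Vale.Agent.P167.N.H542.Q.Phs m c (S.D n) th → ∀ F : ℤ × ℤ → ℂ, (∀ z, ‖F z‖ ≤ Cm / (n : ℝ) ^ 2) →
      (∀ z ∉ sites (ero S.Q n ⌊κ0 * n⌋), F z = 0) → ∑ z ∈ sites (S.D n), F z = 0 →
      Ex Q (S.D n) η (fun ω => ‖XQ th (S.D n) p F ω‖ ^ q) ≤ C := by
  have hQ1_pos := hQ1.pos
  have hm1_lt := hm1.lt
  obtain ⟨R1, hR1, hRn⟩ := exists_R S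
  have hCm0 : 0 < Cm := by linarith
  have hthr := Vale.Agent.P167.N.H542.Q.thr_pos hm0 hm1
  have hthr' := Vale.Agent.P167.N.H542.Q.thr_le hm0 hm1
  obtain ⟨κ, hκp, hκ1, hκ2⟩ : ∃ κ : ℝ, 0 < κ ∧ κ ≤ κ0 / 40 ∧
      κ ≤ Vale.Agent.P167.N.H542.Q.thr m / (2 * Cm) :=
    ⟨min (κ0 / 40) (Vale.Agent.P167.N.H542.Q.thr m / (2 * Cm)), by positivity, min_le_left _ _,
      min_le_right _ _⟩
  have hκ3 : κ ≤ 1 := by linarith
  have hκC : 2 * (Cm * κ ^ 2) ≤ Vale.Agent.P167.N.H542.Q.thr m := by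
    have h1 : Cm * κ ≤ Vale.Agent.P167.N.H542.Q.thr m / 2 := by
      have := mul_le_mul_of_nonneg_left hκ2 hCm0.le
      refine this.trans (le_of_eq ?_)
      field_simp
    have h2 : Cm * κ ^ 2 = Cm * κ * κ := by ring
    rw [h2]
    nlinarith [mul_nonneg hCm0.le hκp.le]
  obtain ⟨M, hM1, hM⟩ : ∃ M : ℝ, 1 ≤ M ∧ c⁻¹ * Real.exp ((2 * R1 + 3) ^ 2 * Cm) ≤ M :=
    ⟨max 1 _, le_max_left _ _, le_max_right _ _⟩
  obtain ⟨C, ρ0, hC, hρ0, h⟩ := Vale.Agent.P167.N.H542.Q.Ym_mom (R := R1 + 2) hQ1 hRSW hm0 hm1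
    hCm0 hκp (by linarith) (by linarith) hq hM1
  refine ⟨C, hC, ?_⟩
  have hev2 : ∀ᶠ n : ℕ in atTop, ρ0 ≤ (n : ℝ) :=
    tendsto_natCast_atTop_atTop.eventually_ge_atTop _
  have hev : ∀ᶠ n : ℕ in atTop, 4 / κ + 16 ≤ (n : ℝ) :=
    tendsto_natCast_atTop_atTop.eventually_ge_atTop _
  filter_upwards [hev, hev2, eventually_gt_atTop 0] with n h3 hρ hn0' η hη p hp th hth F hbd hoff htot
  have hn0 : (0 : ℝ) < n := by exact_mod_cast hn0'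
  have hn4 : 4 ≤ κ * n := by
    have h5 : 0 ≤ (16 : ℝ) := by norm_num
    have : 4 / κ ≤ n := by linarith
    rw [div_le_iff₀ hκp] at this; linarith
  have hn16 : (16 : ℝ) ≤ n := by
    have : 0 ≤ 4 / κ := by positivity
    linarith
  have hf1 := Int.floor_le (κ0 * n)
  have hf2 := Int.lt_floor_add_one (κ0 * n)
  have hk0 : 0 ≤ ⌊κ0 * n⌋ := Int.floor_nonneg.2 (mul_nonneg (by linarith) hn0.le)
  have hκn : 40 * (κ * n) ≤ κ0 * n := by nlinarith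
  have hκn8 : κ0 * n ≤ n / 8 := by nlinarith
  have hk2 : 2 * ⌊κ0 * n⌋ < (n : ℤ) := by
    have : (2 * ⌊κ0 * n⌋ : ℝ) < n := by linarith
    exact_mod_cast this
  have hκk : 34 * κ * n + 2 ≤ ⌊κ0 * n⌋ := by nlinarith
  have hwd : 2 * (κ * n) ≤ ((n : ℤ) - 1 - 2 * ⌊κ0 * n⌋ : ℤ) := by
    push_cast
    linarith
  have h1 := Vale.Agent.P167.N.H542.Q.prod_datQ S hp hth hn0' hk0 hk2 hκp (by nlinarith) hwd hoff
    htot hR1 (hRn n) hCm0 hκC hbd hM1 hM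
  have hG := geo_eroQ S (bas_b S hn0') hn0' hk0 hk2 (δ := (⌊κ0 * n⌋ : ℝ) - 1) (by linarith)
  have h2 := h n hρ (S.D n) η hη {z | z ∈ sites (ero S.Q n ⌊κ0 * n⌋)}
    (fun z hz => by
      have := box_ero S (hRn n) hz
      have hn1 : (1 : ℝ) ≤ n := by exact_mod_cast hn0'
      nlinarith)
    (fun z hz v hv => hG.nbhd z hz v (hv.trans (by linarith))) F hbd
    (sites (ero S.Q n ⌊κ0 * n⌋)) hoff (fun z hz => hz) (by
      rw [← Complex.re_sum]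
      have h3 : ∑ z ∈ sites (ero S.Q n ⌊κ0 * n⌋), F z = ∑ z ∈ sites (S.D n), F z :=
        Finset.sum_subset (sites_mono ero_sub) fun z _ hz => hoff z hz
      rw [h3, htot, Complex.zero_re])
  refine le_trans ?_ h2
  refine FKA.Ex_mono (by linarith) fun S' _ => ?_
  generalize cf (S.D n) η S' = ω
  refine Real.rpow_le_rpow (norm_nonneg (XQ th (S.D n) p F ω)) ?_ hq
  have := h1 ω (P := pcs ω (S.D n)) (Finset.Subset.refl _)
  rw [Finset.sdiff_self, Finset.card_empty, pow_zero, one_mul] at this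
  unfold XQ
  rwa [norm_prod]

/-- **The shift lemma**: the functional is Lipschitz in the charge, uniformly. -/
theorem shift {S : CA.Dat} {θ β : ℝ} (X : BD S θ β) (h0 : 0 < θ) (h1 : Ang θ)
    (hβ : Real.cos (θ / 2 + β) = Real.sin θ) (hR : RSW (2 * Real.cos θ)) {κ Cm : ℝ} (hκ : 0 < κ)
    (hCm : 0 < Cm) : ∃ C : ℝ, 0 < C ∧ ∀ᶠ n in X.L, ∀ F G : ℤ × ℤ → ℝ,
    (∀ z, F z ≠ 0 → z ∈ sites (ero S.Q n ⌊κ * n⌋)) → (∀ z, G z ≠ 0 → z ∈ sites (ero S.Q n ⌊κ * n⌋)) →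
    (∀ z, |F z| ≤ Cm / (n : ℝ) ^ 2) → (∀ z, |G z| ≤ Cm / (n : ℝ) ^ 2) →
    ∑ᶠ z, F z = 0 → ∑ᶠ z, G z = 0 → ∀ e : ℝ, 0 ≤ e → e ≤ 1 →
    (∀ z, |F z - G z| ≤ e * (Cm / (n : ℝ) ^ 2)) →
    |Ex (2 * Real.cos θ) (S.D n) (X.η n) (QX.XB θ β (X.q n) (S.D n) (X.k n) F) -
      Ex (2 * Real.cos θ) (S.D n) (X.η n) (QX.XB θ β (X.q n) (S.D n) (X.k n) G)| ≤ C * e := by
  have h1_lt := h1.lt
  obtain ⟨κ0, hκ0p, hκ08, hκ0⟩ : ∃ κ0 : ℝ, 0 < κ0 ∧ κ0 ≤ 1 / 8 ∧ κ0 ≤ κ :=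
    ⟨min (1 / 8) κ, by positivity, min_le_left _ _, min_le_right _ _⟩
  obtain ⟨C, hC, h⟩ := mom_bulkQ (cB θ) (Vale.Agent.P167.N.H542.Q.BD.one_le h0 h1) hR h0.le h1 S hκ0p hκ08
    (Cm := 3 * Cm + 1) (by linarith) (q := 1) (by norm_num)
  refine ⟨C, hC, ?_⟩
  filter_upwards [X.le h, X.poly, X.enc, X.dob, X.le (eventually_gt_atTop 0)] with n h2 hq hE hdob
    hn F G hF hG hFb hGb hF0 hG0 e he0 he1 hFG
  have hn0 : (0 : ℝ) < n := by exact_mod_cast hn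
  have hk0 : 0 ≤ ⌊κ0 * n⌋ := Int.floor_nonneg.2 (mul_nonneg hκ0p.le hn0.le)
  have hkk : ⌊κ0 * n⌋ ≤ ⌊κ * n⌋ := Int.floor_le_floor (mul_le_mul_of_nonneg_right hκ0 hn0.le)
  have hsub : sites (ero S.Q n ⌊κ * n⌋) ⊆ sites (ero S.Q n ⌊κ0 * n⌋) :=
    sites_mono (ero_anti hk0 hkk)
  rcases he0.eq_or_lt with rfl | he
  · have : F = G := funext fun z => by
      have := hFG z
      rw [zero_mul] at this
      have := abs_nonpos_iff.1 this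
      linarith
    rw [this, sub_self, abs_zero, mul_zero]
  obtain ⟨H, hH⟩ : ∃ H : ℤ × ℤ → ℝ, H = fun z => (G z - F z) / e := ⟨_, rfl⟩
  have hHb : ∀ z, |H z| ≤ Cm / (n : ℝ) ^ 2 := fun z => by
    rw [hH]
    simp only
    rw [abs_div, abs_of_pos he, div_le_iff₀ he, abs_sub_comm]
    linarith [hFG z]
  have hGF : ∀ z, G z = F z + e * H z := fun z => by
    rw [hH]
    simp only
    field_simp
    ring
  have hHs : ∀ z, H z ≠ 0 → z ∈ sites (ero S.Q n ⌊κ * n⌋) := fun z hz => by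
    by_contra hcon
    apply hz
    have h3 : F z = 0 := by_contra fun h3 => hcon (hF z h3)
    have h4 : G z = 0 := by_contra fun h4 => hcon (hG z h4)
    rw [hH]
    simp only
    rw [h3, h4, sub_self, zero_div]
  have hsum : ∀ g : ℤ × ℤ → ℝ, (∀ z, g z ≠ 0 → z ∈ sites (ero S.Q n ⌊κ * n⌋)) →
      ∑ᶠ z, g z = ∑ z ∈ sites (S.D n), g z := fun g hg =>
    finsum_eq_sum_of_support_subset _ fun z hz => sites_mono ero_sub (hg z hz)
  have hF1 := (hsum F hF).symm.trans hF0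
  have hG1 := (hsum G hG).symm.trans hG0
  have hH1 : ∑ z ∈ sites (S.D n), H z = 0 := by
    rw [hH]
    simp only
    rw [← Finset.sum_div, Finset.sum_sub_distrib, hF1, hG1, sub_self, zero_div]
  obtain ⟨φ, hφ⟩ : ∃ φ : ℂ → ℂ, φ = fun s => VQ (2 * Real.cos θ) (S.D n) (X.η n)
    (thB θ β (X.q n) (S.D n) (X.k n)) (X.q n 0) (fun z => (F z : ℂ) + s * (H z : ℂ)) := ⟨_, rfl⟩
  have hd : Differentiable ℂ φ := by
    rw [hφ]
    exact differentiable_VQ _ _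
  have hb : ∀ s : ℂ, ‖s‖ ≤ 2 → ‖φ s‖ ≤ C := fun s hs => by
    rw [hφ]
    have h5 := h2 (X.η n) hdob.good (X.q n 0) (bas_poly hq hE) _
      (Vale.Agent.P167.N.H542.Q.phs_thB (q := X.q n) (k := X.k n) h0 h1 hβ) (fun z => (F z : ℂ) + s * (H z : ℂ))
      (fun z => ?_) (fun z hz => ?_) ?_
    · simp only [Real.rpow_one] at h5
      exact (norm_VQ_le (Vale.Agent.P167.N.H542.Q.BD.cos_pos h0 h1) _).trans h5
    · refine (norm_add_le _ _).trans ?_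
      rw [norm_mul, Complex.norm_real, Complex.norm_real, Real.norm_eq_abs, Real.norm_eq_abs]
      have h6 : ‖s‖ * |H z| ≤ 2 * (Cm / (n : ℝ) ^ 2) :=
        mul_le_mul hs (hHb z) (abs_nonneg _) (by norm_num)
      have h7 := hFb z
      have h8 : (3 * Cm + 1) / (n : ℝ) ^ 2 = 3 * (Cm / (n : ℝ) ^ 2) + 1 / (n : ℝ) ^ 2 := by ring
      have h9 : 0 ≤ 1 / (n : ℝ) ^ 2 := by positivity
      rw [h8]
      linarith
    · have h3 : F z = 0 := by_contra fun h3 => hz (hsub (hF z h3))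
      have h4 : H z = 0 := by_contra fun h4 => hz (hsub (hHs z h4))
      rw [h3, h4]
      simp
    · rw [Finset.sum_add_distrib, ← Finset.mul_sum, ← Complex.ofReal_sum, ← Complex.ofReal_sum,
        hF1, hH1]
      simp
  have key := lip_of_bd hd hb he.le he1
  have e0 : φ 0 = (Ex (2 * Real.cos θ) (S.D n) (X.η n)
      (QX.XB θ β (X.q n) (S.D n) (X.k n) F) : ℂ) := by
    rw [hφ, ← VQ_XB hβ]
    simp
  have e1 : φ e = (Ex (2 * Real.cos θ) (S.D n) (X.η n)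
      (QX.XB θ β (X.q n) (S.D n) (X.k n) G) : ℂ) := by
    rw [hφ, ← VQ_XB hβ]
    simp only
    congr 1
    funext z
    rw [hGF z]
    push_cast
    rfl
  rw [e0, e1, ← Complex.ofReal_sub, Complex.norm_real, Real.norm_eq_abs, abs_sub_comm] at key
  exact key

end Vale.Agent.P167.N.H208.SH
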